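import Vale.Agent.P155.H878.Assem
import Vale.Agent.P155.H878.Det
import Vale.Agent.P155.D877.Tight
import Vale.Agent.P155.T802.StepEV
import Vale.Agent.P155.S862.Area1
import Vale.Agent.P155.S743.EvMain
import Vale.Agent.P155.U902.Fats
import Vale.Agent.P155.U902.B9
import Vale.Agent.P155.N924.Pair
import Vale.Agent.P155.N924.MetDD
import Vale.Agent.P155.H550.Cov
import Vale.Agent.P155.BDK.Colb
import Vale.Agent.P155.A801.Armb
import Vale.Agent.P155.T733.R6b
import Vale.Agent.P155.U613.Asm
import Vale.Agent.P155.U613.Canon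
import Vale.Agent.P155.U.CplLoc
import Vale.Agent.P155.U.Xex4
import Vale.Agent.P155.U.Ext

/-!
# P155: assembly of the literal first question
-/

namespace Vale.Agent.P155.QQ

open Vale.Agent.P155.Q1

/-- convergence of the signed gaskets (full sequence, joint law) -/
theorem full : Uq.FullStatement :=
  U613.full_of_uniqueness
    (U613.uniqueness_of U613.canonStmt (Uq.Xe.existsCpl_of Uq.cplLocStmt) Uq.extStmt)
    Vale.Agent.P155.K.main

theorem step : S7.STEP := T802.step_of_EV S743.ev_holds

theorem area1 : S7.AREA1 := S862.area1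

/-- tightness of the crossings, for the lattice in both directions -/
theorem tight : (CROSS hor ∧ CROSS ver) ∧ (FAT hor ∧ FAT ver) ∧ (TOP hor ∧ TOP ver) :=
  D877.tight_of_step step area1

theorem fatN : BD.FATn := Ann.b9 (Ann.fats (S7.fatup (S7.fatn step area1)))

theorem pair : BD.PAIR BD.dd := BD.pair (BD.met_dd T211B.rmex T211B.sp) H550.cov fatN

theorem armb : BD.ARMB := A801.armb_of (fun _ _ _ _ _ => rfl) pair

theorem colb : BD.COLB := BDK.colb (fun _ _ _ _ _ => rfl) pair

theorem bd : Q1.BD := BD.bd_of_arm armb colb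

theorem q1_local : LocalQ1Statement := q1_local_of full tight.1 tight.2.1 tight.2.2

/-- **the literal first question** -/
theorem q1 : Q1Statement := q1_of full tight.1 tight.2.1 tight.2.2 (bdl_of_bd bd)

end Vale.Agent.P155.QQ
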