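import Vale.Agent.P155.QQ.Fin7Of
import Vale.Agent.P155.NT613.VBfin
import Vale.Agent.P155.NT613.XC2
import Vale.Agent.P155.NT34.XD1
import Vale.Agent.P155.NT733.XF
import Vale.Agent.P155.NO801.AX
import Vale.Agent.P155.NO801.Main

/-!
# P155: the final theorem, with the exact condition on the approximations
-/

namespace Vale.Agent.P155.QQ

open MeasureTheory Filter Topology TopologicalSpace Vale.Agent.P155 Vale.Agent.P155.Q1

/-- **the outer condition is necessary** -/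
theorem ex0 : NO801.EX0 := NO801.ex0_of NO801.ax NT613.cp (NT733.d4_of NT34.d1)

/-- **Final theorem**, with the exact condition. -/
theorem exact_of (h : NT34.VBP2) :
    (∀ Ω : Set ℂ, IsOpen Ω → Bornology.IsBounded Ω → Ω.Nonempty → SimplyConnectedSpace Ω →
      (∃ S : Approx Ω, S.Outer) ∧ ∃ μ : Measure LoopColl, IsProbabilityMeasure μ ∧
      IsNestedCLE4 Ω μ ∧ (∀ ν, IsNestedCLE4 Ω ν → ν = μ) ∧
      ∀ S : Approx Ω, ((∀ F : LoopColl → ℝ, Continuous F → (∃ C, ∀ Γ, |F Γ| ≤ C) →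
          Tendsto (fun n => Ex (S.T n).V (fun ω => F (LL (S.δ n) (S.a n) ω))) atTop
            (𝓝 (∫ Γ, F Γ ∂μ))) ↔ S.Outer) ∧
        (IsConnected (closure Ω)ᶜ → S.Outer)) ∧
    (∀ (Ω Ω' : Set ℂ) (f g : ℂ → ℂ), Bornology.IsBounded Ω → Bornology.IsBounded Ω' →
      Ω.Nonempty → SimplyConnectedSpace Ω' → CI.Conf Ω Ω' f g →
      ∀ μ μ' : Measure LoopColl, IsNestedCLE4 Ω μ → IsNestedCLE4 Ω' μ' →
      ∃ (Θ : Type) (_ : MeasurableSpace Θ) (P : Measure Θ) (Γ Γ' : Θ → LoopColl),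
        IsProbabilityMeasure P ∧ AEMeasurable Γ P ∧ AEMeasurable Γ' P ∧ P.map Γ = μ ∧
        P.map Γ' = μ' ∧ ∀ᵐ x ∂P, CI.MapsColl Ω Ω' f (Γ x) (Γ' x)) := by
  obtain ⟨h1, h2⟩ := final7_of h
  refine ⟨fun Ω ho hb hne hsc => ?_, h2⟩
  obtain ⟨hS0, μ, hp, hμ, huniq, hconv⟩ := h1 Ω ho hb hne hsc
  refine ⟨hS0, μ, hp, hμ, huniq, fun S => ?_⟩
  have key : (∀ F : LoopColl → ℝ, Continuous F → (∃ C, ∀ Γ, |F Γ| ≤ C) →
      Tendsto (fun n => Ex (S.T n).V (fun ω => F (LL (S.δ n) (S.a n) ω))) atTop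
        (𝓝 (∫ Γ, F Γ ∂μ))) → S.Outer := ex0 Ω ho hb hne μ hp hμ S
  exact ⟨⟨key, fun hS => hconv S (Or.inr hS)⟩, fun hc => key (hconv S (Or.inl hc))⟩

end Vale.Agent.P155.QQ
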