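import Vale.Agent.P155.QQ.Lit
import Vale.Agent.P155.EX.Main3

/-!
# P155: existence, uniqueness and convergence, for the approximations of the problem
-/

namespace Vale.Agent.P155

open Filter Topology TopologicalSpace

/-- the polygons eventually lie in every neighbourhood of `Ω` -/
def Approx.Outer {Ω : Set ℂ} (S : Approx Ω) : Prop :=
  ∀ ε > 0, ∀ᶠ n in atTop, region (S.δ n) (S.a n) (S.T n).faceSet ⊆ Metric.thickening ε Ω

/-- forget the two additional conditions -/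
def TempApprox.toApprox {Ω : Set ℂ} (S : TempApprox Ω) : Approx Ω where
  T := S.T
  δ := S.δ
  a := S.a
  pos := S.pos
  mesh := S.mesh
  cara₁ := S.cara₁
  cara₂ := S.cara₂
  haus₁ := S.haus₁
  haus₂ := S.haus₂

namespace QQ

open MeasureTheory Vale.Agent.P155.Q1

/-- **Final theorem**, from the two lattice estimates. -/
theorem final_of (hP : EX.PIN) (hB : EX.BDT) (Ω : Set ℂ) (ho : IsOpen Ω)
    (hb : Bornology.IsBounded Ω) (hne : Ω.Nonempty) (hsc : SimplyConnectedSpace Ω) :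
    (∃ S : Approx Ω, S.Outer) ∧ ∃ μ : Measure LoopColl, IsProbabilityMeasure μ ∧
      IsNestedCLE4 Ω μ ∧ (∀ ν, IsNestedCLE4 Ω ν → ν = μ) ∧
      ∀ S : Approx Ω, (IsConnected (closure Ω)ᶜ ∨ S.Outer) →
      ∀ F : LoopColl → ℝ, Continuous F → (∃ C, ∀ Γ, |F Γ| ≤ C) →
        Tendsto (fun n => Ex (S.T n).V (fun ω => F (LL (S.δ n) (S.a n) ω))) atTop
          (𝓝 (∫ Γ, F Γ ∂μ)) := by
  obtain ⟨⟨S0⟩, μ, h1, h2, h3, -⟩ := EX.main_of_pin hP hB Ω ho hb hne hsc
  exact ⟨⟨S0.toApprox, S0.outer⟩, μ, h1, h2, h3, fun S hS F hF hFb =>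
    q1_lit Ω ho hb hne hsc S hS μ h2 F hF hFb⟩

end QQ

end Vale.Agent.P155
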