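import Vale.Agent.P155.QQ.Fin2
import Vale.Agent.P155.A801.NTAsm
import Vale.Agent.P155.A904.Trans
import Vale.Agent.P155.NT802.Main

/-!
# P155: the final theorem from the one-step estimate of the exploration
-/

namespace Vale.Agent.P155.QQ

open MeasureTheory Filter Topology TopologicalSpace Vale.Agent.P155 Vale.Agent.P155.Q1

theorem pin_of_one (hL : NT802.LassoP) (hO : NT802.OneStep) : EX.PIN :=
  NT.pin_of (NT802.touchp hL hO) (NT.touch_tr (NT802.touchp hL hO)) bd tight.1.1 tight.1.2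

theorem bdt_of_one (hL : NT802.LassoP) (hO : NT802.OneStep) : EX.BDT :=
  NT.bdt_of (NT802.touchp hL hO) (NT.touch_tr (NT802.touchp hL hO)) bd tight.1.1 tight.1.2

/-- **Final theorem**, from the lasso property and the one-step estimate. -/
theorem final3_of (hL : NT802.LassoP) (hO : NT802.OneStep) :
    (∀ Ω : Set ℂ, IsOpen Ω → Bornology.IsBounded Ω → Ω.Nonempty → SimplyConnectedSpace Ω →
      (∃ S : Approx Ω, S.Outer) ∧ ∃ μ : Measure LoopColl, IsProbabilityMeasure μ ∧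
      IsNestedCLE4 Ω μ ∧ (∀ ν, IsNestedCLE4 Ω ν → ν = μ) ∧
      ∀ S : Approx Ω, (IsConnected (closure Ω)ᶜ ∨ S.Outer) →
      ∀ F : LoopColl → ℝ, Continuous F → (∃ C, ∀ Γ, |F Γ| ≤ C) →
        Tendsto (fun n => Ex (S.T n).V (fun ω => F (LL (S.δ n) (S.a n) ω))) atTop
          (𝓝 (∫ Γ, F Γ ∂μ))) ∧
    (∀ (Ω Ω' : Set ℂ) (f g : ℂ → ℂ), Bornology.IsBounded Ω → Bornology.IsBounded Ω' →
      Ω.Nonempty → SimplyConnectedSpace Ω' → CI.Conf Ω Ω' f g →
      ∀ μ μ' : Measure LoopColl, IsNestedCLE4 Ω μ → IsNestedCLE4 Ω' μ' →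
      ∃ (Θ : Type) (_ : MeasurableSpace Θ) (P : Measure Θ) (Γ Γ' : Θ → LoopColl),
        IsProbabilityMeasure P ∧ AEMeasurable Γ P ∧ AEMeasurable Γ' P ∧ P.map Γ = μ ∧
        P.map Γ' = μ' ∧ ∀ᵐ x ∂P, CI.MapsColl Ω Ω' f (Γ x) (Γ' x)) :=
  final2_of (pin_of_one hL hO) (bdt_of_one hL hO)

end Vale.Agent.P155.QQ
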