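import Vale.Agent.P155.QQ.Fin2
import Vale.Agent.P155.NT878.Main
import Vale.Agent.P155.NT904.ClassFin
import Vale.Agent.P155.NT802.ClassF

/-!
# P155: the final theorem from the three blocks `T1P`, `CountP` and `US`
-/

namespace Vale.Agent.P155.QQ

open MeasureTheory Filter Topology TopologicalSpace Vale.Agent.P155 Vale.Agent.P155.Q1

/-- **US** in every class of polygons without macroscopic runs along the boundary. -/
def USb : Prop := ∀ F : ℕ → Temp → Prop, NT878.BDrun F → NT276.USF F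

theorem bdrun_mono {F G : ℕ → Temp → Prop} (h : ∀ R T, G R T → F R T) (hF : NT878.BDrun F) :
    NT878.BDrun G := by
  intro l ε hl hε
  obtain ⟨η, hη, R0, h0⟩ := hF l ε hl hε
  exact ⟨η, hη, R0, fun R hR T hG hfit => h0 R hR T (h R T hG) hfit⟩

theorem bdrun1 {Ω : Set ℂ} (hΩ : IsOpen Ω) (hb : Bornology.IsBounded Ω) (hne : Ω.Nonempty)
    (hsc : SimplyConnectedSpace Ω) (S : TempApprox Ω) {M : ℝ} (hM : 0 < M) :
    NT878.BDrun (NT.FS M S) :=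
  bdrun_mono (fun _ _ ⟨n, h1, h2⟩ => ⟨n, h2, h1⟩) (NT878.bdrun hΩ hb hne hsc S hM)

theorem bdrun2 {Ω : Set ℂ} (hΩ : IsOpen Ω) (hb : Bornology.IsBounded Ω) (hne : Ω.Nonempty)
    (hsc : SimplyConnectedSpace Ω) (S : TempApprox Ω) {M : ℝ} (hM : 0 < M) :
    NT878.BDrun (NT.trF (NT.FS M S)) :=
  bdrun_mono (fun _ T ⟨n, h1, h2⟩ => ⟨D877.trT T, ⟨n, h2, h1⟩, rfl⟩) (NT878.bdrun' hΩ hb hne hsc S hM)

theorem oneStepAll_of (h1 : NT276.T1P) (h2 : NT276.CountP) (h3 : USb) : NT.OneStepAll := by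
  intro Ω hΩ hb hne hsc S M hM
  exact ⟨(NT802.oneStepF_iff _).1 (NT276.onestepF_of h1 h2 (h3 _ (bdrun1 hΩ hb hne hsc S hM))),
    (NT802.oneStepF_iff _).1 (NT276.onestepF_of h1 h2 (h3 _ (bdrun2 hΩ hb hne hsc S hM)))⟩

theorem pin_bdt (h1 : NT276.T1P) (h2 : NT276.CountP) (h3 : USb) : EX.PIN ∧ EX.BDT :=
  NT.pin_bdt_of (oneStepAll_of h1 h2 h3) bd tight.1.1 tight.1.2

/-- **Final theorem**, from `T1P`, `CountP` and `US`. -/
theorem final4_of (h1 : NT276.T1P) (h2 : NT276.CountP) (h3 : USb) :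
    (∀ Ω : Set ℂ, IsOpen Ω → Bornology.IsBounded Ω → Ω.Nonempty → SimplyConnectedSpace Ω →
      (∃ S : Approx Ω, S.Outer) ∧ ∃ μ : Measure LoopColl, IsProbabilityMeasure μ ∧
      IsNestedCLE4 Ω μ ∧ (∀ ν, IsNestedCLE4 Ω ν → ν = μ) ∧
      ∀ S : Approx Ω, (IsConnected (closure Ω)ᶜ ∨ S.Outer) →
      ∀ F : LoopColl → ℝ, Continuous F → (∃ C, ∀ Γ, |F Γ| ≤ C) →
        Tendsto (fun n => Ex (S.T n).V (fun ω => F (LL (S.δ n) (S.a n) ω))) atTop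
          (𝓝 (∫ Γ, F Γ ∂μ))) ∧
    (∀ (Ω Ω' : Set ℂ) (f g : ℂ → ℂ), Bornology.IsBounded Ω → Bornology.IsBounded Ω' →
      Ω.Nonempty → SimplyConnectedSpace Ω' → CI.Conf Ω Ω' f g →
      ∀ μ μ' : Measure LoopColl, IsNestedCLE4 Ω μ → IsNestedCLE4 Ω' μ' →
      ∃ (Θ : Type) (_ : MeasurableSpace Θ) (P : Measure Θ) (Γ Γ' : Θ → LoopColl),
        IsProbabilityMeasure P ∧ AEMeasurable Γ P ∧ AEMeasurable Γ' P ∧ P.map Γ = μ ∧
        P.map Γ' = μ' ∧ ∀ᵐ x ∂P, CI.MapsColl Ω Ω' f (Γ x) (Γ' x)) :=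
  final2_of (pin_bdt h1 h2 h3).1 (pin_bdt h1 h2 h3).2

end Vale.Agent.P155.QQ
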