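import Vale.Agent.P155.NO801.Y5
import Vale.Agent.P155.NO801.YS
import Vale.Agent.P155.QQ.Exact

/-!
# P155: the final theorem, with the conformal radii and the iteration of nested CLE₄
-/

namespace Vale.Agent.P155.QQ

open MeasureTheory Filter Topology TopologicalSpace Vale.Agent.P155 Vale.Agent.P155.Q1

section

variable {Θ : Type} [MeasurableSpace Θ] {P : Measure Θ} {Ω : Set ℂ}
  {G : ℕ → Θ → NonemptyCompacts ℂ} {ξ : ℕ → ℕ → Θ → ℝ} {Γ : Θ → LoopColl}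

theorem nested_iff : NCLE.Nested P Ω G ξ Γ ↔ YD.Nested P Ω G ξ Γ :=
  ⟨fun ⟨h1, h2, h3, h4, h5, h6, h7, h8, h9, h10⟩ => ⟨h1, h2, h3, h4, h5, h6, h7, h8, h9, h10⟩,
    fun ⟨h1, h2, h3, h4, h5, h6, h7, h8, h9, h10⟩ => ⟨h1, h2, h3, h4, h5, h6, h7, h8, h9, h10⟩⟩

theorem radii_iff : NCLE.Radii P Ω G ↔ YD.Radii P Ω G := Iff.rfl

theorem inside_eq' : NCLE.inside = YD.inside := rfl

theorem iter_iff : NCLE.Iter P Ω G Γ ↔ NO801.Y.IterK Ω P G Γ := Iff.rfl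

theorem nestedCLE4_iff {μ : Measure LoopColl} : IsNestedCLE4 Ω μ ↔
    ∃ (Θ : Type) (_ : MeasurableSpace Θ) (P : Measure Θ) (G : ℕ → Θ → NonemptyCompacts ℂ)
      (ξ : ℕ → ℕ → Θ → ℝ) (Γ : Θ → LoopColl), NCLE.Nested P Ω G ξ Γ ∧ μ = P.map Γ := by
  rw [YD.isNestedCLE4_iff]
  simp only [nested_iff]

end

/-- **Final theorem**, with the conformal radii and the iteration. -/
theorem iter_of (h : NT34.VBP2) (hR : YD.RGoal) (hI : NO801.Y.ITER) (hS : NO801.Y.HSC) :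
    (∀ Ω : Set ℂ, IsOpen Ω → Bornology.IsBounded Ω → Ω.Nonempty → SimplyConnectedSpace Ω →
      (∃ S : Approx Ω, S.Outer) ∧ ∃ μ : Measure LoopColl, IsProbabilityMeasure μ ∧
      IsNestedCLE4 Ω μ ∧ (∀ ν, IsNestedCLE4 Ω ν → ν = μ) ∧
      (∀ S : Approx Ω, ((∀ F : LoopColl → ℝ, Continuous F → (∃ C, ∀ Γ, |F Γ| ≤ C) →
          Tendsto (fun n => Ex (S.T n).V (fun ω => F (LL (S.δ n) (S.a n) ω))) atTop
            (𝓝 (∫ Γ, F Γ ∂μ))) ↔ S.Outer) ∧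
        (IsConnected (closure Ω)ᶜ → S.Outer)) ∧
      (∃ (Θ : Type) (_ : MeasurableSpace Θ) (P : Measure Θ) (G : ℕ → Θ → NonemptyCompacts ℂ)
        (ξ : ℕ → ℕ → Θ → ℝ) (Γ : Θ → LoopColl), NCLE.Nested P Ω G ξ Γ) ∧
      ∀ (Θ : Type) (_ : MeasurableSpace Θ) (P : Measure Θ) (G : ℕ → Θ → NonemptyCompacts ℂ)
        (ξ : ℕ → ℕ → Θ → ℝ) (Γ : Θ → LoopColl), NCLE.Nested P Ω G ξ Γ →
        P.map Γ = μ ∧ NCLE.Radii P Ω G ∧ NCLE.Iter P Ω G Γ) ∧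
    (∀ (Ω Ω' : Set ℂ) (f g : ℂ → ℂ), Bornology.IsBounded Ω → Bornology.IsBounded Ω' →
      Ω.Nonempty → SimplyConnectedSpace Ω' → CI.Conf Ω Ω' f g →
      ∀ μ μ' : Measure LoopColl, IsNestedCLE4 Ω μ → IsNestedCLE4 Ω' μ' →
      ∃ (Θ : Type) (_ : MeasurableSpace Θ) (P : Measure Θ) (Γ Γ' : Θ → LoopColl),
        IsProbabilityMeasure P ∧ AEMeasurable Γ P ∧ AEMeasurable Γ' P ∧ P.map Γ = μ ∧
        P.map Γ' = μ' ∧ ∀ᵐ x ∂P, CI.MapsColl Ω Ω' f (Γ x) (Γ' x)) := by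
  obtain ⟨h1, h2⟩ := exact_of h
  refine ⟨fun Ω ho hb hne hsc => ?_, h2⟩
  obtain ⟨hS0, μ, hp, hμ, huniq, hconv⟩ := h1 Ω ho hb hne hsc
  refine ⟨hS0, μ, hp, hμ, huniq, hconv, ?_, ?_⟩
  · obtain ⟨Θ, mΘ, P, G, ξ, Γ, h, -⟩ := nestedCLE4_iff.1 hμ
    exact ⟨Θ, mΘ, P, G, ξ, Γ, h⟩
  · intro Θ mΘ P G ξ Γ h
    have h' : YD.Nested P Ω G ξ Γ := nested_iff.1 h
    have := h'.prob
    exact ⟨huniq _ (nestedCLE4_iff.2 ⟨Θ, mΘ, P, G, ξ, Γ, h, rfl⟩),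
      hR Ω ho hb hne hsc P G _ h'.carp, iter_iff.2 (NO801.Y.iterK_of hI hS ho hb hne hsc h')⟩

end Vale.Agent.P155.QQ
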