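import Vale.Agent.P155.QQ.Iter
import Vale.Agent.P155.NT814Y.SplAll
import Vale.Agent.P155.V743.Ind2
import Vale.Agent.P155.NT613.YRG
import Vale.Agent.P155.NT34.YHSC

/-!
# P155: nested CLE₄ is iterated by independent copies; assembly
-/

namespace Vale.Agent.P155.QQ

open MeasureTheory Filter Topology TopologicalSpace Vale.Agent.P155 Vale.Agent.P155.Q1

theorem exi : V743.Ind.EXI := by
  intro V ho hb hne hsc
  obtain ⟨μ, hμ⟩ := EX.exists_nested_of NO801.Y.pin_bdt.1 NO801.Y.pin_bdt.2 EX.jord EX211.meas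
    ho hb hne hsc
  obtain ⟨Θ, mΘ, P, G, ξ, Γ, h, -⟩ := YD.isNestedCLE4_iff.1 hμ
  exact ⟨Θ, mΘ, P, G, _, h.prob, h.carp⟩

theorem spl : V743.Ind.SPL := by
  intro O V h1 h2 h3 h4 h5 Θ Θ' mΘ mΘ' P hP P' hP' G H G' H' hS hS'
  exact NT814Y.spl_all O V h1 h2 h3 h4 h5 Θ mΘ P G H hP hS Θ' mΘ' P' G' H' hP' hS'

/-- **ITER**: given the first level, the carpets in the holes are independent copies -/
theorem iter : NO801.Y.ITER := V743.Ind.iter_of spl exi NT34.Y.hsc

end Vale.Agent.P155.QQ
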