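import Vale.Agent.P155.QQ.Asm
import Vale.Agent.P155.S743T.Approx

/-!
# P155: the literal first question, for the approximations of the problem
-/

namespace Vale.Agent.P155.QQ

open MeasureTheory Filter Topology TopologicalSpace Vale.Agent.P155 Vale.Agent.P155.Q1

/-- the double-dimer loops of Temperleyan approximations converge in law to nested CLE₄ -/
theorem q1_lit (Ω : Set ℂ) (ho : IsOpen Ω) (hb : Bornology.IsBounded Ω) (hne : Ω.Nonempty)
    (hsc : SimplyConnectedSpace Ω) (S : Approx Ω)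
    (hS : IsConnected (closure Ω)ᶜ ∨ ∀ ε > 0, ∀ᶠ n in atTop,
      region (S.δ n) (S.a n) (S.T n).faceSet ⊆ Metric.thickening ε Ω)
    (μ : Measure LoopColl) (hμ : IsNestedCLE4 Ω μ) (F : LoopColl → ℝ) (hF : Continuous F)
    (hFb : ∃ C, ∀ Γ, |F Γ| ≤ C) :
    Tendsto (fun n => Ex (S.T n).V (fun ω => F (LL (S.δ n) (S.a n) ω))) atTop
      (𝓝 (∫ Γ, F Γ ∂μ)) := by
  have key : ∃ S' : TempApprox Ω, S'.T = S.norm.T ∧ S'.δ = S.norm.δ ∧ S'.a = S.norm.a := by
    rcases hS with hc | hout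
    · exact ⟨S.norm.toTempApprox hb hc, rfl, rfl, rfl⟩
    · refine ⟨TempApprox.mk S.norm.T S.norm.δ S.norm.a S.norm.pos S.norm.mesh S.norm.bdd
        S.norm.cara₁ S.norm.cara₂ S.norm.haus₁ S.norm.haus₂ ?_, rfl, rfl, rfl⟩
      simpa only [S.region_norm] using hout
  obtain ⟨S', h1, h2, h3⟩ := key
  have h := q1 Ω ho hb hne hsc S' μ hμ F hF hFb
  rw [h1, h2, h3] at h
  simpa only [S.Ex_norm] using h

end Vale.Agent.P155.QQ
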